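import Vale.Agent.P155.H878.Loops

/-!
# P155, existence of the nested CLE_4: the space of loop collections is pseudometrizable
-/

namespace Vale.Agent.P155.EX211

open MeasureTheory Filter Topology TopologicalSpace Vale.Agent.P155 Vale.Agent.P155.Q1

theorem basis_nat' : (uniformity LoopColl).HasBasis (fun _ : ℕ => True)
    (fun n => {p | close (1 / ((n : ℝ) + 1)) p.1 p.2}) := by
  refine hasBasis.to_hasBasis (fun ε hε => ?_) fun n _ => ⟨1 / ((n : ℝ) + 1), by positivity, subset_rfl⟩
  obtain ⟨n, hn⟩ := exists_nat_one_div_lt hε
  exact ⟨n, trivial, fun p hp => close_mono hn.le hp⟩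

instance pseudoMetr : PseudoMetrizableSpace LoopColl := by
  have : (uniformity LoopColl).IsCountablyGenerated := basis_nat'.isCountablyGenerated
  infer_instance

end Vale.Agent.P155.EX211
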