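import Vale.Agent.P155.EX.Asm
import Vale.Agent.P155.EX211.Metr

/-!
# P155, existence of the nested CLE_4: measurability of the random loop collection
-/

namespace Vale.Agent.P155.EX211

open MeasureTheory Filter Topology TopologicalSpace Metric Vale.Agent.P155 Vale.Agent.P155.Q1

theorem nullMeasurable_of_real {E : Type*} [TopologicalSpace E] [PseudoMetrizableSpace E]
    [MeasurableSpace E] [BorelSpace E] {Θ : Type*} [MeasurableSpace Θ] {P : Measure Θ}
    {Γ : Θ → E} (h : ∀ F : E → ℝ, Continuous F → (∃ C, ∀ y, |F y| ≤ C) →
      AEStronglyMeasurable (fun x => F (Γ x)) P) : NullMeasurable Γ P := by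
  let _ : PseudoMetricSpace E := pseudoMetrizableSpacePseudoMetric E
  have key : @Measurable (NullMeasurableSpace Θ P) E _ _ Γ := by
    refine measurable_of_isClosed fun s hs => ?_
    rcases s.eq_empty_or_nonempty with rfl | hne
    · have h5 : NullMeasurableSet (Γ ⁻¹' ∅) P := by
        rw [Set.preimage_empty]
        exact MeasurableSet.empty.nullMeasurableSet
      exact h5
    · have hF : Continuous fun y : E => min (1 : ℝ) (infDist y s) :=
        continuous_const.min (continuous_infDist_pt s)
      have h1 : NullMeasurable (fun x => min (1 : ℝ) (infDist (Γ x) s)) P := by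
        refine (h (fun y => min (1 : ℝ) (infDist y s)) hF ⟨1, fun y => ?_⟩).aemeasurable.nullMeasurable
        rw [abs_of_nonneg (le_min zero_le_one infDist_nonneg)]
        exact min_le_left _ _
      have h2 : Γ ⁻¹' s = (fun x => min (1 : ℝ) (infDist (Γ x) s)) ⁻¹' {0} := by
        ext x
        rw [Set.mem_preimage, Set.mem_preimage, Set.mem_singleton_iff]
        constructor
        · intro hx
          rw [infDist_zero_of_mem hx]
          norm_num
        · intro hx
          have h3 : infDist (Γ x) s = 0 := by
            rcases min_choice (1 : ℝ) (infDist (Γ x) s) with h4 | h4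
            · rw [hx] at h4
              norm_num at h4
            · rw [← h4, hx]
          rwa [hs.mem_iff_infDist_zero hne]
      have h5 : NullMeasurableSet (Γ ⁻¹' s) P := by
        rw [h2]
        exact h1 (measurableSet_singleton 0)
      exact h5
  exact key

theorem aemeasurable_of_real {E : Type*} [TopologicalSpace E] [PseudoMetrizableSpace E]
    [MeasurableSpace E] [BorelSpace E] {Θ : Type*} [MeasurableSpace Θ] {P : Measure Θ}
    {Γ : Θ → E} {C : Set E} (hC : IsSeparable C) (hG : ∀ᵐ x ∂P, Γ x ∈ closure C)
    (h : ∀ F : E → ℝ, Continuous F → (∃ C, ∀ y, |F y| ≤ C) →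
      AEStronglyMeasurable (fun x => F (Γ x)) P) : AEMeasurable Γ P := by
  let _ : PseudoMetricSpace E := pseudoMetrizableSpacePseudoMetric E
  have h1 : IsSeparable (closure C) := hC.closure
  have h2 : SeparableSpace (closure C) := h1.separableSpace
  have h3 : SecondCountableTopology (closure C) := UniformSpace.secondCountable_of_separable _
  exact (nullMeasurable_of_real h).aemeasurable_of_aerange hG

theorem meas : EX.MEAS := by
  intro Θ _ P Γ C hC hG h
  exact aemeasurable_of_real hC.isSeparable hG h

end Vale.Agent.P155.EX211
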