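import Vale.Agent.P155.QQ.Asm

/-!
# P155, existence of the nested CLE_4: uniqueness of the law
-/

namespace Vale.Agent.P155.EX211

open MeasureTheory Filter Topology TopologicalSpace Vale.Agent.P155 Vale.Agent.P155.Q1
open scoped BoundedContinuousFunction

theorem basis_nat : (uniformity LoopColl).HasBasis (fun _ : ℕ => True)
    (fun n => {p | close (1 / ((n : ℝ) + 1)) p.1 p.2}) := by
  refine hasBasis.to_hasBasis (fun ε hε => ?_) fun n _ => ⟨1 / ((n : ℝ) + 1), by positivity, subset_rfl⟩
  obtain ⟨n, hn⟩ := exists_nat_one_div_lt hε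
  exact ⟨n, trivial, fun p hp => close_mono hn.le hp⟩

instance : (uniformity LoopColl).IsCountablyGenerated := basis_nat.isCountablyGenerated

instance : PseudoMetrizableSpace LoopColl := inferInstance

/-- two finite measures on loop collections with the same integrals of bounded continuous
functions are equal -/
theorem measure_ext {μ μ' : Measure LoopColl} [IsFiniteMeasure μ] [IsFiniteMeasure μ']
    (h : ∀ F : LoopColl → ℝ, Continuous F → (∃ C, ∀ Γ, |F Γ| ≤ C) → ∫ Γ, F Γ ∂μ = ∫ Γ, F Γ ∂μ') :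
    μ = μ' := by
  apply ext_of_forall_integral_eq_of_IsFiniteMeasure
  intro f
  refine h f f.continuous ⟨‖f‖, fun Γ => ?_⟩
  rw [← Real.norm_eq_abs]
  exact f.norm_coe_le_norm Γ

theorem isProb {Ω : Set ℂ} {μ : Measure LoopColl} (h : IsNestedCLE4 Ω μ) :
    IsProbabilityMeasure μ := by
  obtain ⟨Θ, _, P, G, ξ, Γ, hP, hΓ, rfl, -⟩ := h
  exact Measure.isProbabilityMeasure_map hΓ

/-- **the nested CLE₄ law is unique** -/
theorem unique_law {Ω : Set ℂ} (ho : IsOpen Ω) (hb : Bornology.IsBounded Ω) (hne : Ω.Nonempty)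
    (hs : SimplyConnectedSpace Ω) (S : TempApprox Ω) {μ μ' : Measure LoopColl}
    (h : IsNestedCLE4 Ω μ) (h' : IsNestedCLE4 Ω μ') : μ = μ' := by
  have := isProb h
  have := isProb h'
  refine measure_ext fun F hF hC => ?_
  exact tendsto_nhds_unique (QQ.q1 Ω ho hb hne hs S μ h F hF hC)
    (QQ.q1 Ω ho hb hne hs S μ' h' F hF hC)

end Vale.Agent.P155.EX211
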